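import Vale.Agent.P259.Final.Q
import Vale.Agent.P259.Exists.Main

/-!
# P259, Q1: the Grothendieck homotopy hypothesis
-/

namespace Vale.Agent.Results.P259.HomotopyHypothesis

open Vale.Agent.P259

/-- Coherators exist, and for every coherator there is a disc functor whose fundamental
infinity-groupoid functor induces an equivalence of homotopy categories, for every choice of
identity lifts. -/
theorem result : (∃ C : GlobExt, IsCoherator C) ∧ Q1 := ⟨Exists.exists_coherator, Final.q1⟩

end Vale.Agent.Results.P259.HomotopyHypothesis
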